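import Mathlib
import Vale.Agent.P370.QMADef
import Vale.Agent.P370.QStmt

/-!
QMA-hardness of the antiferromagnetic Heisenberg model: definitions.
-/

namespace Vale.Agent.P370.H

open Finset ComplexConjugate

/-! ### real qubit states and Pauli operators `X`, `Z` -/

/-- real states of `n` qubits -/
abbrev RSt (n : ℕ) : Type := (Fin n → Bool) → ℝ

def ip {n : ℕ} (v w : RSt n) : ℝ := ∑ x, v x * w x

def nrm2 {n : ℕ} (v : RSt n) : ℝ := ip v v

/-- Pauli operators `0 = I`, `1 = X`, `2 = Z` on qubit `i` (identity if `i` is not a qubit) -/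
def pau {n : ℕ} (P i : ℕ) (v : RSt n) : RSt n :=
  if h : i < n then
    if P = 0 then v
    else if P = 1 then fun x => v (Function.update x ⟨i, h⟩ (!x ⟨i, h⟩))
    else fun x => (if x ⟨i, h⟩ then -1 else 1) * v x
  else v

/-- term `c P_i Q_j` -/
structure Tm (R : Type) where
  c : R
  P : ℕ
  i : ℕ
  Q : ℕ
  j : ℕ

/-- quadratic form of a list of terms -/
def tform {n : ℕ} (L : List (Tm ℝ)) (v : RSt n) : ℝ :=
  (L.map fun t => t.c * ip v (pau t.P t.i (pau t.Q t.j v))).sum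

/-- sum of the absolute values of the coefficients -/
def tabs (L : List (Tm ℝ)) : ℝ := (L.map fun t => |t.c|).sum

/-- admissible terms on `n` qubits: constants, one-qubit terms (`Q = 0`), two-qubit terms with
`i < j` -/
def Tm.Ok {R : Type} (n : ℕ) (t : Tm R) : Prop :=
  (t.P = 0 ∧ t.Q = 0) ∨ ((t.P = 1 ∨ t.P = 2) ∧ t.Q = 0 ∧ t.i < n) ∨
    ((t.P = 1 ∨ t.P = 2) ∧ (t.Q = 1 ∨ t.Q = 2) ∧ t.i < t.j ∧ t.j < n)

/-! ### real circuits in rounds -/

/-- A round: a one-qubit gate number `a` (`0`: identity, `1`: reflection of angle `π/8`, others: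
reflection of angle `π/4` = Hadamard) on qubit `q`, followed by `CZ` on the qubits `f`, `s`. -/
structure Rnd where
  a : ℕ
  q : ℕ
  f : ℕ
  s : ℕ

/-- angle of the reflection -/
noncomputable def ang (a : ℕ) : ℝ := if a = 1 then Real.pi / 8 else Real.pi / 4

/-- `cos φ Z + sin φ X` -/
noncomputable def refl {n : ℕ} (a q : ℕ) (v : RSt n) : RSt n :=
  if a = 0 then v else Real.cos (ang a) • pau 2 q v + Real.sin (ang a) • pau 1 q v

/-- `CZ = (1 + Z_f + Z_s - Z_f Z_s) / 2` -/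
noncomputable def czg {n : ℕ} (f s : ℕ) (v : RSt n) : RSt n :=
  (1 / 2 : ℝ) • (v + pau 2 f v + pau 2 s v - pau 2 f (pau 2 s v))

noncomputable def rndAct {n : ℕ} (r : Rnd) (v : RSt n) : RSt n := czg r.f r.s (refl r.a r.q v)

noncomputable def runR {n : ℕ} (rs : List Rnd) (v : RSt n) : RSt n :=
  rs.foldl (fun v r => rndAct r v) v

/-- valid rounds on `n` qubits -/
def Rnd.Ok (n : ℕ) (r : Rnd) : Prop := r.q < n ∧ r.f < n ∧ r.s < n ∧ r.f ≠ r.s

/-- projection onto `x_i = 1` -/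
noncomputable def one {n : ℕ} (i : ℕ) (v : RSt n) : RSt n := (1 / 2 : ℝ) • (v - pau 2 i v)

/-- projection onto `x_i = 0` -/
noncomputable def zer {n : ℕ} (i : ℕ) (v : RSt n) : RSt n := (1 / 2 : ℝ) • (v + pau 2 i v)

/-- real and imaginary parts, the additional qubit `n` tells them apart -/
def emb {n : ℕ} (ψ : QState n) : RSt (n + 1) := fun x =>
  if x (Fin.last n) then (ψ (fun i => x i.castSucc)).im else (ψ (fun i => x i.castSucc)).re

/-- rounds of a gate -/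
def comp (n kind i j : ℕ) : List Rnd :=
  if i < n then
    if kind = 0 then [⟨2, i, i, n⟩, ⟨0, 0, i, n⟩]
    else if kind = 1 then [⟨0, 0, i, n⟩, ⟨1, n, i, n⟩, ⟨1, n, i, n⟩, ⟨0, 0, i, n⟩]
    else if j < n ∧ i ≠ j then [⟨2, j, i, j⟩, ⟨2, j, i, j⟩, ⟨0, 0, i, j⟩]
    else []
  else []

/-- rounds of a circuit -/
def rnds (z : List Bool) : List Rnd :=
  (List.range (((blocks z).length - 2) / 3)).flatMap fun t =>
    comp (cQubits z) ((blocks z).getD (3 * t + 2) 0) ((blocks z).getD (3 * t + 3) 0)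
      ((blocks z).getD (3 * t + 4) 0)

/-! ### the Hamiltonian of a circuit: `N` qubits, clock qubits `N, ..., N + Tc - 1` -/

section ham

variable {R : Type} [CommRing R]

/-- length of the clock -/
def tc (M : ℕ) : ℕ := 6 * M + 5

/-- clock qubit `t`, `1 ≤ t ≤ Tc` -/
def ck (N t : ℕ) : ℕ := N + t - 1

/-- `2 c · (projection onto the time t)` on legal clock states -/
def projT (N Tc : ℕ) (c : R) (t : ℕ) : List (Tm R) :=
  if t = 0 then [⟨c, 0, 0, 0, 0⟩, ⟨c, 2, ck N 1, 0, 0⟩]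
  else if t = Tc then [⟨c, 0, 0, 0, 0⟩, ⟨-c, 2, ck N Tc, 0, 0⟩]
  else [⟨c, 2, ck N (t + 1), 0, 0⟩, ⟨-c, 2, ck N t, 0, 0⟩]

/-- default round -/
def rget (rs : List Rnd) (l : ℕ) : Rnd := rs.getD l ⟨0, 0, 0, 0⟩

/-- gate at the fine transition `t` (`t` not a multiple of `6`) as a list of (coefficient, Pauli,
qubit); `w` is the unit of the coefficients, `tr a` is (cosine, sine) of the angle of the gate
number `a` in this unit; round `l` is `rget rs (l - 1)` -/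
def fineG (rs : List Rnd) (w : R) (tr : ℕ → R × R) (t : ℕ) : List (R × ℕ × ℕ) :=
  if t % 6 = 1 then
    if 1 ≤ t / 6 then [(w, 2, (rget rs (t / 6 - 1)).f)] else [(w, 0, 0)]
  else if t % 6 = 2 then
    if 1 ≤ t / 6 then [(w, 2, (rget rs (t / 6 - 1)).s)] else [(w, 0, 0)]
  else if t % 6 = 3 then
    if t / 6 < rs.length ∧ (rget rs (t / 6)).a ≠ 0 then
      [((tr (rget rs (t / 6)).a).1, 2, (rget rs (t / 6)).q),
        ((tr (rget rs (t / 6)).a).2, 1, (rget rs (t / 6)).q)]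
    else [(w, 0, 0)]
  else if t % 6 = 4 then
    if t / 6 < rs.length then [(w, 2, (rget rs (t / 6)).f)] else [(w, 0, 0)]
  else
    if t / 6 < rs.length then [(w, 2, (rget rs (t / 6)).s)] else [(w, 0, 0)]

/-- clock Hamiltonian -/
def hClock (N Tc : ℕ) (J : R) : List (Tm R) :=
  (List.range (Tc - 1)).flatMap fun t =>
    [⟨2 * J, 0, 0, 0, 0⟩, ⟨2 * J, 2, ck N (t + 1), 0, 0⟩, ⟨-(2 * J), 2, ck N (t + 2), 0, 0⟩,
      ⟨-(2 * J), 2, ck N (t + 1), 2, ck N (t + 2)⟩]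

/-- propagation by one-qubit gates -/
def hFine (N : ℕ) (rs : List Rnd) (w : R) (tr : ℕ → R × R) (J : R) : List (Tm R) :=
  (List.range (tc rs.length)).flatMap fun t =>
    if (t + 1) % 6 = 0 then [] else
      projT N (tc rs.length) (2 * J * w) (t + 1) ++ projT N (tc rs.length) (2 * J * w) t ++
        (fineG rs w tr (t + 1)).map fun g =>
          if g.2.1 = 0 then ⟨-(4 * J * g.1), 1, ck N (t + 1), 0, 0⟩
          else ⟨-(4 * J * g.1), g.2.1, g.2.2, 1, ck N (t + 1)⟩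

/-- propagation by the gates `CZ` -/
def hCz (N : ℕ) (rs : List Rnd) (J : R) : List (Tm R) :=
  (List.range rs.length).flatMap fun l =>
    [⟨-(4 * J), 1, ck N (6 * (l + 1)), 0, 0⟩,
      ⟨-(6 * J), 2, (rget rs l).f, 1, ck N (6 * (l + 1))⟩,
      ⟨-(6 * J), 2, (rget rs l).s, 1, ck N (6 * (l + 1))⟩] ++
    projT N (tc rs.length) (4 * J) (6 * (l + 1)) ++
    projT N (tc rs.length) (4 * J) (6 * (l + 1) - 1) ++
    [⟨J, 1, ck N (6 * (l + 1) + 1), 0, 0⟩, ⟨J, 1, ck N (6 * (l + 1) + 2), 0, 0⟩,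
      ⟨2 * J, 1, ck N (6 * (l + 1) + 1), 1, ck N (6 * (l + 1) + 2)⟩,
      ⟨J, 1, ck N (6 * (l + 1) - 1), 0, 0⟩, ⟨J, 1, ck N (6 * (l + 1) - 2), 0, 0⟩,
      ⟨2 * J, 1, ck N (6 * (l + 1) - 2), 1, ck N (6 * (l + 1) - 1)⟩]

/-- input check of the qubits `m ≤ i < N - 1` -/
def hIn (N m : ℕ) (J : R) : List (Tm R) :=
  (List.range (N - 1 - m)).flatMap fun i =>
    [⟨2 * J, 0, 0, 0, 0⟩, ⟨-(2 * J), 2, m + i, 0, 0⟩, ⟨2 * J, 2, ck N 1, 0, 0⟩,
      ⟨-(2 * J), 2, m + i, 2, ck N 1⟩]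

/-- output check of the qubit `0` -/
def hOut (N Tc : ℕ) (w : R) : List (Tm R) :=
  [⟨2 * w, 0, 0, 0, 0⟩, ⟨2 * w, 2, 0, 0, 0⟩, ⟨-(2 * w), 2, ck N Tc, 0, 0⟩,
    ⟨-(2 * w), 2, 0, 2, ck N Tc⟩]

/-- size parameter -/
def rr (N M : ℕ) : ℕ := N + M + 1000

/-- the Hamiltonian (eight times the usual normalisation) in the unit `w` -/
def ham (N m : ℕ) (rs : List Rnd) (w : R) (tr : ℕ → R × R) : List (Tm R) :=
  hClock N (tc rs.length) ((rr N rs.length : R) ^ 64 * w) ++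
    hFine N rs w tr ((rr N rs.length : R) ^ 24) ++ hCz N rs ((rr N rs.length : R) ^ 8 * w) ++
    hIn N m (1000 * w) ++ hOut N (tc rs.length) w

end ham

/-- cosine and sine -/
noncomputable def trR (a : ℕ) : ℝ × ℝ := (Real.cos (ang a), Real.sin (ang a))

/-! ### the energy on legal clock states -/

/-- gate at the fine transition `t` -/
noncomputable def gfine {n : ℕ} (rs : List Rnd) (t : ℕ) (v : RSt n) : RSt n :=
  if t % 6 = 1 then (if 1 ≤ t / 6 then pau 2 (rget rs (t / 6 - 1)).f v else v)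
  else if t % 6 = 2 then (if 1 ≤ t / 6 then pau 2 (rget rs (t / 6 - 1)).s v else v)
  else if t % 6 = 3 then
    (if t / 6 < rs.length then refl (rget rs (t / 6)).a (rget rs (t / 6)).q v else v)
  else if t % 6 = 4 then (if t / 6 < rs.length then pau 2 (rget rs (t / 6)).f v else v)
  else (if t / 6 < rs.length then pau 2 (rget rs (t / 6)).s v else v)

/-- energy of the `CZ` transition number `l + 1` -/
noncomputable def q2 {n : ℕ} (r : Rnd) (t : ℕ) (a : ℕ → RSt n) : ℝ :=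
  nrm2 (a t) + nrm2 (a (t - 1)) - ip (a t) (a (t - 1)) -
    3 / 2 * (ip (a t) (pau 2 r.f (a (t - 1))) + ip (a t) (pau 2 r.s (a (t - 1)))) +
    1 / 4 * (ip (a (t + 1)) (a t) + ip (a (t + 2)) (a (t + 1)) + ip (a (t - 1)) (a (t - 2)) +
      ip (a (t - 2)) (a (t - 3))) +
    1 / 2 * (ip (a (t + 2)) (a t) + ip (a (t - 1)) (a (t - 3)))

/-- energy of a family `a t`, `0 ≤ t ≤ Tc` (without the clock term) -/
noncomputable def e1 {n : ℕ} (J1 J2 J3 : ℝ) (m : ℕ) (rs : List Rnd) (a : ℕ → RSt n) : ℝ :=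
  J1 * (∑ t ∈ Icc 1 (tc rs.length), if t % 6 = 0 then 0
    else 1 / 2 * nrm2 (a t - gfine rs t (a (t - 1)))) +
  J2 * (∑ l ∈ range rs.length, q2 (rget rs l) (6 * (l + 1)) a) +
  J3 * (∑ i ∈ Ico m (n - 1), nrm2 (one i (a 0))) +
  nrm2 (zer 0 (a (tc rs.length)))

/-- total squared norm -/
noncomputable def tot {n : ℕ} (M : ℕ) (a : ℕ → RSt n) : ℝ :=
  ∑ t ∈ range (tc M + 1), nrm2 (a t)

/-- valid inputs: the qubits `m ≤ i < n - 1` are zero -/
def ValidIn {n : ℕ} (m : ℕ) (φ : RSt n) : Prop :=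
  ∀ i, m ≤ i → i < n - 1 → one i φ = 0

/-! ### spins -/

/-- states of spins one half indexed by `I` -/
abbrev SSt (I : Type) : Type := (I → Fin 2) → ℂ

section spins

variable {I : Type} [Fintype I] [DecidableEq I]

noncomputable def sip (Φ Ψ : SSt I) : ℂ := ∑ s, conj (Φ s) * Ψ s

noncomputable def snorm2 (Φ : SSt I) : ℝ := ∑ s, ‖Φ s‖ ^ 2

/-- `S_i · S_j` for `i ≠ j` -/
noncomputable def dotS (i j : I) (Φ : SSt I) : SSt I :=
  fun s => (1 / 2) * Φ (s ∘ Equiv.swap i j) - (1 / 4) * Φ s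

/-- `⟨Φ, ∑_{i<j} J i j S_i · S_j Φ⟩` for symmetric `J` -/
noncomputable def hs (J : I → I → ℝ) (Φ : SSt I) : ℝ :=
  1 / 2 * ∑ i, ∑ j, if i = j then 0 else J i j * (sip Φ (dotS i j Φ)).re

end spins

/-! ### blocks of four spins -/

section blocks

variable {B : Type} [Fintype B] [DecidableEq B]

/-- class of a pair of spins of a block -/
def cls (g k : Fin 4) : Fin 4 := ⟨g.val ^^^ k.val, by
  revert g k; decide⟩

/-- `S_g · S_k` in the block `b`, with `S_g · S_g = 3/4` -/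
noncomputable def hcl (b : B) (g : Fin 4) (Φ : SSt (B × Fin 4)) : SSt (B × Fin 4) :=
  if g = 0 then (3 / 4 : ℂ) • Φ else dotS (b, 0) (b, g) Φ

/-- block singlets: the total spin of every block vanishes -/
def IsBS (Φ : SSt (B × Fin 4)) : Prop :=
  ∀ b, ∑ g : Fin 4, ∑ k : Fin 4, (if g = k then (3 / 4 : ℂ) • Φ else dotS (b, g) (b, k) Φ) = 0

/-- sum over the blocks of half the squared total spin -/
noncomputable def casimir (Φ : SSt (B × Fin 4)) : SSt (B × Fin 4) :=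
  ∑ b : B, (1 / 2 : ℂ) • ∑ g : Fin 4, ∑ k : Fin 4,
    (if g = k then (3 / 4 : ℂ) • Φ else dotS (b, g) (b, k) Φ)

/-- coupling between different blocks, `c b b' g h = c b' b h g` -/
noncomputable def inter (c : B → B → Fin 4 → Fin 4 → ℝ) (Φ : SSt (B × Fin 4)) :
    SSt (B × Fin 4) :=
  (1 / 2 : ℂ) • ∑ b : B, ∑ b' : B, if b = b' then 0 else
    ∑ g : Fin 4, ∑ h : Fin 4, (c b b' g h : ℂ) • dotS (b, g) (b', h) Φ

/-- orthonormal basis of the singlets of four spins -/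
noncomputable def eb (x : Bool) (s : Fin 4 → Fin 2) : ℝ :=
  if x then
    (if s 0 = s 1 ∧ s 2 = s 3 ∧ s 0 ≠ s 2 then 2
      else if s 0 ≠ s 1 ∧ s 2 ≠ s 3 then -1 else 0) / √12
  else
    (if s 0 ≠ s 1 ∧ s 2 ≠ s 3 then (if s 0 = s 2 then 1 else -1) else 0) / 2

/-- embedding of qubits (one for each block) into spins -/
noncomputable def iota (u : (B → Bool) → ℂ) : SSt (B × Fin 4) := fun s =>
  ∑ x : B → Bool, u x * ∏ b, (eb (x b) (fun g => s (b, g)) : ℂ)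

/-- adjoint of `iota` -/
noncomputable def iotaA (Φ : SSt (B × Fin 4)) : (B → Bool) → ℂ := fun x =>
  ∑ s : B × Fin 4 → Fin 2, (∏ b, (eb (x b) (fun g => s (b, g)) : ℂ)) * Φ s

/-- the three directions `Z`, `-Z/2 + √3/2 X`, `-Z/2 - √3/2 X` -/
noncomputable def sgm (a : Fin 3) (b : B) (u : (B → Bool) → ℂ) : (B → Bool) → ℂ := fun x =>
  (if a = 0 then 1 else -(1 / 2) : ℂ) * ((if x b then -1 else 1) * u x) +
    (if a = 0 then 0 else if a = 1 then ((√3 : ℝ) : ℂ) / 2 else -((√3 : ℝ) : ℂ) / 2) *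
      u (Function.update x b (!x b))

/-- couplings of the final Heisenberg model: blocks with strength `s^10`, modified by `d b a` on
the pairs `(0, a + 1)`; different blocks are coupled by `s^7` on `(0, 0)` and by
`s^6 t b b' a a'` on `(a + 1, a' + 1)` -/
noncomputable def jw (s : ℝ) (t : B → B → Fin 3 → Fin 3 → ℝ) (d : B → Fin 3 → ℝ)
    (p q : B × Fin 4) : ℝ :=
  if p.1 = q.1 then
    s ^ 10 + (if hq : q.2 ≠ 0 then (if p.2 = 0 then d p.1 (q.2.pred hq) else 0) else 0) +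
      (if hp : p.2 ≠ 0 then (if q.2 = 0 then d p.1 (p.2.pred hp) else 0) else 0)
  else
    if hp : p.2 ≠ 0 then (if hq : q.2 ≠ 0 then s ^ 6 * t p.1 q.1 (p.2.pred hp) (q.2.pred hq) else 0)
    else (if q.2 = 0 then s ^ 7 else 0)

/-- effective energy -/
noncomputable def teff (s : ℝ) (t : B → B → Fin 3 → Fin 3 → ℝ) (d : B → Fin 3 → ℝ)
    (u : (B → Bool) → ℂ) : ℝ :=
  -(3 / 2 * s ^ 10 * Fintype.card B) * (∑ x, ‖u x‖ ^ 2) -
    (∑ b : B, ∑ b' : B, if b = b' then 0 else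
      (3 / 64 * s ^ 4 * (∑ x, ‖u x‖ ^ 2) +
      ∑ a : Fin 3, ∑ a' : Fin 3, t b b' a a' * s ^ 3 *
        (1 / 96 * (∑ x, ‖u x‖ ^ 2) + 1 / 24 * (∑ x, conj (u x) * sgm a b u x).re +
          1 / 24 * (∑ x, conj (u x) * sgm a b (sgm a' b' u) x).re))) -
    ∑ b : B, ∑ a : Fin 3, d b a *
      (1 / 4 * (∑ x, ‖u x‖ ^ 2) + 1 / 2 * (∑ x, conj (u x) * sgm a b u x).re)

end blocks

end Vale.Agent.P370.H
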